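import Crest.Agent.N255.Lz.Zn
import Crest.Agent.N255.Vc.Ch
import Crest.Agent.N255.Wn.B2
import Crest.Agent.N255.Mv.Per

/-!
# Row 255 (helper88): the zones of a vertex
-/

set_option autoImplicit false
open Set

noncomputable section

namespace Crest.Agent.N255.Vz

open Tp Wn Vc

/-- splitting of a chain along a finite family -/
theorem split {X : Type} [TopologicalSpace X] {k : Type} [CommRing k] {n : ℕ} {κ : Type} [Fintype κ]
    {Q : Sb X} {P : κ → Sb X} (h : ∀ σ ∈ Q.S n, ∃ z, σ ∈ (P z).S n) {c : Ch k n X}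
    (hc : c ∈ Q.ch k n) : ∃ ρ : κ → Ch k n X, (∀ z, ρ z ∈ ((P z).inf Q).ch k n) ∧ ∑ z, ρ z = c := by
  classical
  refine Sb.map_mem LinearMap.id ((Submodule.pi univ fun z => ((P z).inf Q).ch k n).map
    (∑ z, LinearMap.proj z)) (fun σ hσ => ?_) hc |>.imp fun ρ h =>
      ⟨fun z => h.1 z trivial, by simpa using h.2⟩
  obtain ⟨z, hz⟩ := h σ hσ
  refine ⟨Pi.single z (sg k σ), fun z' _ => ?_, by simp⟩
  by_cases e : z' = z
  · subst e; simpa using Sb.sg_mem (P := (P z').inf Q) ⟨hz, hσ⟩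
  · simp [e]

/-- the levels at a vertex: walls `i` oriented outwards, `n` annuli on the near half of each wall,
centre `(l n, r)`, all cuts are at levels `≥ c` -/
structure Lv (X ι : Type) [TopologicalSpace X] where
  s : ι → C(X, ℝ)
  l : ι → ℕ → ℝ
  r : ι → ℝ
  c : ι → ℝ
  n : ℕ
  ml : ∀ i, StrictMono (l i)
  lt : ∀ i m, l i m < r i
  c0 : ∀ i, 0 < c i
  cl : ∀ i, c i ≤ l i 0
  sep : ∀ i j, i ≠ j → ∀ x, s i x + s j x ≤ 0

namespace Lv

variable {X ι : Type} [TopologicalSpace X] (L : Lv X ι)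

/-- the zones: the core and `(i, z)`, `z ≤ n` -/
abbrev Ix : Type := Option (ι × Fin (L.n + 1))

/-- upper end of the zone `z` -/
def ub (i : ι) (z : ℕ) : ℝ := if z < L.n then L.l i (z + 2) else L.r i

/-- the star region below the levels `l m` -/
def St (m : ℕ) : Set X := core L.s fun i => L.l i m

/-- the zones as sets -/
def zs : L.Ix → Set X
  | none => L.St 2
  | some (i, z) => win (L.s i) (L.l i z) (L.ub i z)

/-- positions -/
def pos : L.Ix → ℕ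
  | none => 0
  | some (_, z) => z

/-- slots -/
def sl (i0 : ι) : L.Ix → ι
  | none => i0
  | some (i, _) => i

/-- the centre of wall `i` -/
def ce (i : ι) : L.Ix := some (i, Fin.last _)

/-- the zones as families of small simplices -/
def P (𝒞 : Set (Set X)) (z : L.Ix) : Sb X := SB 𝒞 (L.zs z)

/-- the sets of the fine cover -/
def fs (U : Set X) : Prop :=
  U = core L.s L.c ∨ ∃ i, U = win (L.s i) 0 (L.l i 2) ∨ U = hi (L.s i) (L.l i L.n) ∨
    ∃ z < L.n, U = win (L.s i) (L.l i z) (L.l i (z + 2))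

/-- the fine cover -/
def cvr (𝒞 : Set (Set X)) : Set (Set X) := {Y | ∃ C ∈ 𝒞, ∃ U, L.fs U ∧ Y = C ∩ U}

variable {L} {𝒞 : Set (Set X)} {i j : ι} {m z : ℕ} {x : X}

theorem l_pos : 0 < L.l i m := (L.c0 i).trans_le ((L.cl i).trans ((L.ml i).monotone m.zero_le))

theorem l_le (h : m ≤ z) : L.l i m ≤ L.l i z := (L.ml i).monotone h

theorem l_lt (h : m < z) : L.l i m < L.l i z := L.ml i h

theorem neg (h : i ≠ j) (hx : 0 < L.s i x) : L.s j x < 0 := by linarith [L.sep i j h x]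

theorem zs_ce : L.zs (L.ce i) = win (L.s i) (L.l i L.n) (L.r i) := by simp [zs, ce, ub]

theorem zs_lt {z : Fin (L.n + 1)} (h : (z : ℕ) < L.n) :
    L.zs (some (i, z)) = win (L.s i) (L.l i z) (L.l i (z + 2)) := by simp [zs, ub, h]

theorem ub_le : L.ub i z ≤ L.r i := by
  unfold ub; split_ifs; exacts [(L.lt _ _).le, le_rfl]

theorem le_ub (h : m ≤ z + 2) : L.l i m ≤ L.ub i z := by
  unfold ub; split_ifs; exacts [l_le h, (L.lt _ _).le]

theorem St_mono (h : m ≤ z) : L.St m ⊆ L.St z := fun _ hx i => (hx i).trans_le (l_le h)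

theorem win_St {a : ℝ} (ha : 0 ≤ a) : win (L.s i) a (L.l i m) ⊆ L.St m := fun x hx j => by
  by_cases e : i = j
  · exact e ▸ hx.2
  · exact (neg e (ha.trans_lt hx.1)).trans l_pos

theorem hi_lo (h : i ≠ j) {a b : ℝ} (ha : 0 ≤ a) (hb : 0 ≤ b) : hi (L.s i) a ⊆ lo (L.s j) b :=
  fun _ hx => (neg h (ha.trans_lt hx)).trans_le hb

theorem core_St : core L.s L.c ⊆ L.St m := fun _ hx i => (hx i).trans_le ((L.cl i).trans (l_le m.zero_le))

theorem zs_hi {z : Fin (L.n + 1)} : L.zs (some (i, z)) ⊆ hi (L.s i) (L.l i z) := win_hi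

theorem zs_lo (z : L.Ix) (i : ι) : L.zs z ⊆ lo (L.s i) (L.r i) := by
  rcases z with _ | ⟨j, z⟩
  · exact fun x hx => (hx i).trans (L.lt _ _)
  · by_cases e : j = i
    · exact e ▸ win_lo.trans (lo_mono ub_le)
    · exact zs_hi.trans (hi_lo e l_pos.le (l_pos.trans (L.lt i 0)).le)

theorem sub_ce {W : Set X} (h : W ⊆ win (L.s i) (L.l i L.n) (L.r i)) : W ⊆ L.zs (L.ce i) :=
  h.trans zs_ce.ge

theorem sub_lt {W : Set X} (hz : z < L.n) (h : W ⊆ win (L.s i) (L.l i z) (L.l i (z + 2))) :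
    W ⊆ L.zs (some (i, ⟨z, hz.le.trans_lt L.n.lt_succ_self⟩)) :=
  h.trans (zs_lt (z := ⟨z, hz.le.trans_lt L.n.lt_succ_self⟩) hz).ge

/-- zones of small position lie in a star region -/
theorem zs_St {z : L.Ix} (h : L.pos z + 2 ≤ m) (hn : L.pos z < L.n) : L.zs z ⊆ L.St m := by
  rcases z with _ | ⟨j, z⟩
  · exact St_mono h
  · rw [zs_lt hn]; exact (win_St l_pos.le).trans (St_mono h)


theorem mem_cvr {n : ℕ} {σ : Sx n X} :
    σ ∈ (Sm (L.cvr 𝒞)).S n ↔ σ ∈ (Sm 𝒞).S n ∧ ∃ U, L.fs U ∧ range σ ⊆ U :=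
  ⟨fun ⟨_, ⟨C, hC, U, hU, rfl⟩, h⟩ => ⟨⟨C, hC, h.trans inter_subset_left⟩, U, hU,
    h.trans inter_subset_right⟩,
    fun ⟨⟨C, hC, h⟩, U, hU, h'⟩ => ⟨_, ⟨C, hC, U, hU, rfl⟩, subset_inter h h'⟩⟩

/-- small simplices beyond `l n` (for instance those of the wall chains) are fine -/
theorem SB_le_cvr {W : Set X} (h : W ⊆ hi (L.s i) (L.l i L.n)) : (SB 𝒞 W).Le (Sm (L.cvr 𝒞)) :=
  fun _ _ hσ => mem_cvr.2 ⟨hσ.2, _, .inr ⟨i, .inr (.inl rfl)⟩, hσ.1.trans h⟩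


/-- a fine simplex below `r` lies in a zone -/
theorem mem_zone {n : ℕ} {σ : Sx n X} (h : σ ∈ (SB (L.cvr 𝒞) (core L.s L.r)).S n) :
    ∃ z, σ ∈ (L.P 𝒞 z).S n := by
  obtain ⟨h1, h2, U, hU, h3⟩ := And.intro h.1 (mem_cvr.1 h.2)
  rcases hU with rfl | ⟨i, rfl | rfl | ⟨z, hz, rfl⟩⟩
  · exact ⟨none, h3.trans core_St, h2⟩
  · exact ⟨none, h3.trans (win_St le_rfl), h2⟩
  · exact ⟨L.ce i, sub_ce fun x hx => ⟨h3 hx, h1 hx i⟩, h2⟩
  · exact ⟨_, sub_lt hz h3, h2⟩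





variable [Fintype ι]

theorem isOpen_St : IsOpen (L.St m) := isOpen_core

theorem isOpen_zs : ∀ z, IsOpen (L.zs z)
  | none => isOpen_St
  | some _ => isOpen_win

theorem fs_open {U : Set X} (h : L.fs U) : IsOpen U := by
  rcases h with rfl | ⟨i, rfl | rfl | ⟨z, -, rfl⟩⟩
  exacts [isOpen_core, isOpen_win, isOpen_hi, isOpen_win]

omit [Fintype ι] in
theorem fs_cover (x : X) : ∃ U, L.fs U ∧ x ∈ U := by
  by_cases h : ∀ i, L.s i x < L.c i
  · exact ⟨_, .inl rfl, h⟩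
  obtain ⟨i, hi⟩ := not_forall.1 h
  have h0 : 0 < L.s i x := (L.c0 i).trans_le (not_lt.1 hi)
  have key : ∀ z ≤ L.n, (L.l i z < L.s i x ∨ ∃ U, L.fs U ∧ x ∈ U) → L.l i L.n < L.s i x ∨
      ∃ U, L.fs U ∧ x ∈ U := fun z hz => by
    induction hz using Nat.decreasingInduction with
    | self => exact id
    | of_succ z hz ih =>
      refine fun q => ih (q.elim (fun q => ?_) .inr)
      rcases lt_or_ge (L.l i (z + 1)) (L.s i x) with q' | q'
      · exact .inl q'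
      · exact .inr ⟨_, .inr ⟨i, .inr (.inr ⟨z, hz, rfl⟩)⟩, q, q'.trans_lt (l_lt (by omega))⟩
  rcases lt_or_ge (L.l i 0) (L.s i x) with q | q
  · exact (key 0 L.n.zero_le (.inl q)).elim (fun q => ⟨_, .inr ⟨i, .inr (.inl rfl)⟩, q⟩) id
  · exact ⟨_, .inr ⟨i, .inl rfl⟩, h0, q.trans_lt (l_lt (by omega))⟩



/-- **decomposition of the vertex chain** -/
theorem exists_split {k : Type} [CommRing k] {n : ℕ} {b : ι → ℝ} (hb : ∀ i, b i ≤ L.r i) {ρ : Ch k n X}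
    (h : ρ ∈ ((On (core L.s b)).inf (Sm (L.cvr 𝒞))).ch k n) :
    ∃ ρ' : L.Ix → Ch k n X, (∀ z, ρ' z ∈ (L.P 𝒞 z).ch k n) ∧ ∑ z, ρ' z = ρ :=
  let ⟨ρ', h1, h2⟩ := split (P := L.P 𝒞) (Q := (On (core L.s b)).inf (Sm (L.cvr 𝒞)))
    (fun _ hσ => mem_zone ⟨fun _ hx i => (hσ.1 hx i).trans_le (hb i), hσ.2⟩) h
  ⟨ρ', fun z => Sb.ch_mono Sb.inf_le_left (h1 z), h2⟩

section van

variable {k A : Type} [CommRing k] [AddCommGroup A] [Module k A] {n p : ℕ} {u : Co A n X}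

omit [Fintype ι]





end van

end Lv

end Crest.Agent.N255.Vz

end
private theorem rz_aefda3122c : type_of% @_root_.Crest.Agent.N255.Vz.Lv.pos.eq_1 := @_root_.Crest.Agent.N255.Vz.Lv.pos.eq_1 -- L66
private theorem rz_1c24f08f37 : type_of% @_root_.Crest.Agent.N255.Vz.Lv.zs.eq_1 := @_root_.Crest.Agent.N255.Vz.Lv.zs.eq_1 -- L61
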