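import Crest.Agent.N255.Ma.Wd
import Crest.Agent.N255.Wv.Fam
import Crest.Agent.N255.Sg.Vx
import Crest.Agent.N255.Vz.Defs
import Crest.Agent.N255.Lz.Vx
import Crest.Agent.N255.Dt.Abs

-- ▼ part N255/Vl/Lin
section

/-!
# Row 255 (helper52): the linear part and the sources of the vertex family
-/

set_option autoImplicit false
open Set Sum

noncomputable section

namespace Crest.Agent.N255.Vl
open Tp Nv Pt Lv En Wn Le Ma

variable {F : Subgroup F3} {S : Type} [MulAction F3 S] {X : Type} [TopologicalSpace X]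
  [MulAction F X] [ContinuousConstSMul F X] {k : Type} [Field k] {g : Geo F k S X} {u R₀ : ℝ} {n : ℕ}

section wall
variable {J : Type} [Fintype J] {τ : Ty J} {e : Ed (Fin 3)} {o : Bool} (ω : Wd g u R₀ n τ e o)

theorem u_lt (m : ℕ) : u < ω.l m := (ω.ua.trans_lt ω.al).trans_le (ω.win.ml.monotone m.zero_le)

theorem l_le {m m' : ℕ} (h : m ≤ m') : ω.l m ≤ ω.l m' := ω.win.ml.monotone h

theorem r_pos (m : ℕ) : 0 < ω.r m := (ω.u0.trans (u_lt ω 0)).trans (ω.win.lt 0 m)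

theorem ct_cc (j : J) : ω.ct j ∈ Cc k univ k 1 := Wv.ct_Cc (ω.mem j).1

variable {ω}

theorem B_far {j : J} (h : τ.kd j ≠ o) (m : ℕ) : ω.B (τ.kd j == o) m = hi (g.E.s e) (ω.l m) := by
  rw [show (τ.kd j == o) = false by simpa using h]; rfl

theorem B_near {j : J} (h : τ.kd j = o) (m : ℕ) : ω.B (τ.kd j == o) m = lo (g.E.s e) (ω.r m) := by
  rw [show (τ.kd j == o) = true by simpa using h]; rfl

/-- far cut classes vanish behind the cut -/
theorem ct_far {j : J} (h : τ.kd j ≠ o) {m : ℕ} (hm : m ≤ τ.sc j + 1) :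
    ω.ct j ∈ (On (hi (g.E.s e) (ω.l m))ᶜ).van k k 1 :=
  van_mono (compl_subset_compl.2 (by rw [B_far h]; exact hi_mono (l_le ω hm))) Wv.ct_van

theorem ct_far_sub {j : J} (h : τ.kd j ≠ o) {m : ℕ} (hm : τ.sc j + 1 ≤ m) :
    ω.ct j - ω.h j ∈ (On (hi (g.E.s e) (ω.l m))).van k k 1 :=
  van_mono (by rw [B_far h]; exact hi_mono (l_le ω hm)) Wv.ct_sub

theorem sum_ct {x : J → k} (hx : ∀ j, x j ≠ 0 → τ.kd j ≠ o ∧ τ.sc j = 0) :
    ∑ j, x j • ω.ct j ∈ (On (hi (g.E.s e) (ω.l 1))ᶜ).van k k 1 ∧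
      ∑ j, x j • ω.ct j - ∑ j, x j • ω.h j ∈ (On (hi (g.E.s e) (ω.l 1))).van k k 1 := by
  rw [← Finset.sum_sub_distrib]
  refine ⟨sum_mem fun j _ => ?_, sum_mem fun j _ => ?_⟩ <;> by_cases h : x j = 0
  · simp [h]
  · exact Submodule.smul_mem _ _ (ct_far (hx j h).1 (by omega))
  · simp [h]
  · rw [← smul_sub]
    exact Submodule.smul_mem _ _ (ct_far_sub (hx j h).1 (by rw [(hx j h).2]))

end wall

theorem bey_le {e e' : Ed (Fin 3)} (h : Bey (rev e) e') (x : X) : g.E.s e x + g.E.s e' x ≤ 0 := by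
  have := g.E.s_bey _ _ x h
  rw [g.E.s_rev] at this
  linarith

variable {J : Fin 3 → Type} [∀ i, Fintype (J i)] {τ : ∀ i, Ty (J i)} {v : F3} {t o : Fin 3 → Bool}

theorem hi_lo {i j : Fin 3} (h : i ≠ j) {a b : ℝ} (hab : 0 ≤ a + b) :
    hi (g.E.s (st v t i)) a ⊆ lo (g.E.s (st v t j)) b := fun x hx => by
  have := bey_le (g := g) (st_bey v t h) x
  show _ < b
  linarith [show a < _ from hx]

theorem hi_compl {i j : Fin 3} (h : i ≠ j) {a b : ℝ} (ha : 0 ≤ a) (hb : 0 ≤ b) :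
    hi (g.E.s (st v t i)) a ⊆ (hi (g.E.s (st v t j)) b)ᶜ := fun x hx hx' => by
  have := bey_le (g := g) (st_bey v t h) x
  linarith [show a < _ from hx, show b < _ from hx']

variable (ω : ∀ i, Wd g u R₀ n (τ i) (st v t i) (o i))

/-- the allowed linear transfers `q ↦ (i, j)` -/
def Tf (τ : ∀ i, Ty (J i)) (o : Fin 3 → Bool) (i : Fin 3) (j : J i) (q : Σ i, J i ⊕ Bool) : Prop :=
  q.1 ≠ i ∧ (τ i).kd j ≠ o i ∧ (τ i).sc j = 0 ∧ ((∃ j', q.2 = inl j' ∧ (τ q.1).kd j' = o q.1 ∧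
    (τ q.1).sc j' = 0 ∧ (τ i).dp j < (τ q.1).dp j') ∨ (q.2 = inr false ∧ o q.1 = false))

/-- **the linear classes at a vertex**; `c i` is the longitude cut -/
structure Lin (c : Fin 3 → ℝ) where
  cG : (Σ i, J i ⊕ Bool) → Co k 1 X
  lx : ∀ i, J i → (Σ i, J i ⊕ Bool) → k
  cc : ∀ q, cG q ∈ Cc k univ k 1
  cob_inl : ∀ i j, cob k (cG ⟨i, inl j⟩) = cob k ((ω i).ct j)
  far : ∀ i j, (τ i).kd j ≠ o i → cG ⟨i, inl j⟩ = (ω i).ct j
  y : ∀ i, cG ⟨i, inr true⟩ = 0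
  wL : ∀ i, o i = false → cob k (cG ⟨i, inr false⟩) = -cob k (ω i).η
  wM : ∀ i, o i = true → cG ⟨i, inr false⟩ = -Wv.ct (hi (g.E.s (st v t i)) (c i)) (ω i).η
  own : ∀ i x, cG ⟨i, x⟩ - (ω i).cx x ∈ (On (hi (g.E.s (st v t i)) (c i))).van k k 1
  agr : ∀ i q, q.1 ≠ i → cG q - ∑ j, lx i j q • (ω i).ct j ∈
    vo k g.E.cv (hi (g.E.s (st v t i)) ((ω i).l 2)) 1
  tf : ∀ i j q, lx i j q ≠ 0 → Tf τ o i j q

/-- one hat -/
theorem hat (i₀ : Fin 3) (φ : Co k 1 X) {Q : ∀ i, J i → Prop}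
    (h : ∀ i, i ≠ i₀ → ∃ x : J i → k, (∀ j, x j ≠ 0 → ((τ i).kd j ≠ o i ∧ (τ i).sc j = 0) ∧ Q i j) ∧
      ∃ η ∈ Cc k univ k 0, φ - ∑ j, x j • (ω i).h j - cob k η ∈
        vo k g.E.cv (hi (g.E.s (st v t i)) ((ω i).l 2)) 1) :
    ∃ ζ ∈ Cc k univ k 0, ζ ∈ (On (hi (g.E.s (st v t i₀)) 0)).van k k 0 ∧ ∃ x : ∀ i, J i → k,
      (∀ i j, x i j ≠ 0 → i₀ ≠ i ∧ ((τ i).kd j ≠ o i ∧ (τ i).sc j = 0) ∧ Q i j) ∧
      ∀ i, i₀ ≠ i → φ - cob k ζ - ∑ j, x i j • (ω i).ct j ∈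
        vo k g.E.cv (hi (g.E.s (st v t i)) ((ω i).l 2)) 1 := by
  classical
  choose! x h1 η h2 h3 using h
  have l0 : ∀ i m, 0 ≤ (ω i).l m := fun i m => ((ω i).u0.trans (u_lt (ω i) m)).le
  let y : ∀ i, J i → k := fun i => if i = i₀ then 0 else x i
  have hy : ∀ i j, y i j ≠ 0 → i₀ ≠ i ∧ ((τ i).kd j ≠ o i ∧ (τ i).sc j = 0) ∧ Q i j := fun i j hj => by
    by_cases e : i = i₀
    · simp [y, e] at hj
    · exact ⟨Ne.symm e, h1 i e j (by simpa [y, e] using hj)⟩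
  have s := fun i => sum_ct (ω := ω i) fun j hj => (hy i j hj).2.1
  have hd : ∀ b b', b ≠ b' → hi (g.E.s (st v t b)) ((ω b).l 1) ⊆
      (hi (g.E.s (st v t b')) ((ω b').l 1))ᶜ := fun b b' h => hi_compl h (l0 _ _) (l0 _ _)
  have hU : ∀ b, hi (g.E.s (st v t b)) ((ω b).l 2) ⊆ hi (g.E.s (st v t b)) ((ω b).l 1) :=
    fun b => hi_mono (l_le (ω b) one_le_two)
  obtain ⟨ζ, a1, a2, a3⟩ := Wv.exists_hat hU (fun b b' h => disjoint_left.2 (hd b b' h))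
    (P := fun i => (On (hi (g.E.s (st v t i)) ((ω i).l 2))).inf (Sm g.E.cv))
    (fun _ => Sb.inf_le_left) {i | i ≠ i₀} φ (fun b => (s b).1) fun b hb => ⟨η b, h2 b hb, by
      have := sub_mem (h3 b hb) (on_le (hU b) (s b).2)
      simp only [y, if_neg hb] at this ⊢
      convert this using 1; abel⟩
  refine ⟨ζ, a1, van_mono (fun z hz hz' => ?_) a2, y, hy, fun i hi' => ?_⟩
  · obtain ⟨b, hb, h⟩ := mem_iUnion₂.1 hz'
    exact hi_compl (Ne.symm hb) le_rfl (l0 _ _) hz h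
  · have := add_mem (a3 i hi'.symm) (sum_mem fun b (hb : b ∈ Finset.univ.erase i) =>
      on_le ((hU i).trans (hd i b (Finset.ne_of_mem_erase hb).symm)) (s b).1)
    convert this using 1
    rw [← Finset.add_sum_erase _ _ (Finset.mem_univ i)]; abel

variable {ω}

theorem hat_near (dep : ∀ i j, i ≠ j → (ω i).Dep (ω j)) {i₀ : Fin 3} {j₀ : J i₀}
    (h : (τ i₀).kd j₀ = o i₀) (i : Fin 3) (hi' : i ≠ i₀) : ∃ x : J i → k, (∀ j, x j ≠ 0 →
      ((τ i).kd j ≠ o i ∧ (τ i).sc j = 0) ∧ (τ i₀).sc j₀ = 0 ∧ (τ i).dp j < (τ i₀).dp j₀) ∧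
      ∃ η ∈ Cc k univ k 0, (ω i₀).ct j₀ - ∑ j, x j • (ω i).h j - cob k η ∈
        vo k g.E.cv (hi (g.E.s (st v t i)) ((ω i).l 2)) 1 := by
  obtain ⟨x, a, b⟩ := dep i₀ i hi'.symm j₀ h
  obtain ⟨η, b1, b2⟩ := mem_BP.1 b
  refine ⟨x, fun j hj => ⟨⟨(a j hj).1, (a j hj).2.1⟩, (a j hj).2.2⟩, η, b1, on_le subset_rfl ?_⟩
  have : (ω i₀).ct j₀ - (ω i₀).h j₀ ∈ (On (hi (g.E.s (st v t i)) ((ω i).l 2))).van k k 1 :=
    van_mono (by
      rw [B_near h]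
      exact hi_lo hi' (add_pos ((ω i).u0.trans (u_lt _ 2)) (r_pos _ _)).le) Wv.ct_sub
  convert add_mem this b2 using 1; abel

theorem eta_Z {i₀ i : Fin 3} (h : o i₀ = false) (hi' : i ≠ i₀) :
    (ω i₀).η ∈ (g.E.toLev.Sb (hi (g.E.s (st v t i)) u)).Z k k 1 := by
  have b := (ω i₀).bz.cl
  simp only [h, me_false, rev_rev, Bool.false_eq_true, if_false] at b
  have hb : 0 < (ω i₀).b := (r_pos _ 0).trans (ω i₀).rb
  have := sub_mem (Sb.van_le_Z (P := g.E.toLev.Sb (hi (g.E.s (st v t i)) u))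
    (x := Or.Xe g.E.toLev g.M k (st v t i₀) R₀) fun σ hσ => by
      rw [← show _ = Or.Xe g.E.toLev g.M k (st v t i₀) R₀ σ from Lev.mz_cast k σ,
        (ω i₀).big.mz_zero (st_bey v t hi'.symm) hσ.1, Int.cast_zero])
    (Sb.Z_mono (P := g.E.toLev.Sb (hi (g.E.s (st v t i)) u)) (Q := g.E.toLev.Sb (lo (g.E.s (st v t i₀)) (ω i₀).b))
      (fun _ _ hσ => ⟨hσ.1.trans (hi_lo hi' (add_pos (ω i₀).u0 hb).le), hσ.2⟩) b)
  simpa using this

theorem hat_eta (hn : 0 < n) {i₀ : Fin 3} (h : o i₀ = false) (i : Fin 3) (hi' : i ≠ i₀) :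
    ∃ x : J i → k, (∀ j, x j ≠ 0 → ((τ i).kd j ≠ o i ∧ (τ i).sc j = 0) ∧ True) ∧
      ∃ η ∈ Cc k univ k 0, -(ω i₀).η - ∑ j, x j • (ω i).h j - cob k η ∈
        vo k g.E.cv (hi (g.E.s (st v t i)) ((ω i).l 2)) 1 := by
  obtain ⟨ψ, a1, a2⟩ := Wv.zp_of_sm g.E.cv_open (W := hi (g.E.s (st v t i)) ((ω i).l 1))
    ((subset_univ _).trans g.E.cv_cover) (neg_mem (ω i₀).bz.cc) (neg_mem (Sb.Z_mono
      (P := g.E.toLev.Sb (hi (g.E.s (st v t i)) ((ω i).l 1))) (Q := g.E.toLev.Sb (hi (g.E.s (st v t i)) u))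
      (fun _ _ hσ => ⟨hσ.1.trans (hi_mono (u_lt _ 1).le), hσ.2⟩) (eta_Z h hi')))
  obtain ⟨x, b1, b⟩ := (ω i).span false 0 hn ψ a1
  obtain ⟨η, b2, b3⟩ := mem_BP.1 b
  refine ⟨x, fun j hj => ⟨⟨by simpa using (b1 j hj).1, by simpa using (b1 j hj).2⟩, trivial⟩, η, b2, ?_⟩
  rw [show -(ω i₀).η - ∑ j, x j • (ω i).h j - cob k η =
    -(ω i₀).η - ψ + (ψ - ∑ j, x j • (ω i).h j - cob k η) by simp only [sub_eq_add_neg, add_assoc, neg_add_cancel_left]]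
  exact add_mem (Sb.van_mono Sb.inf_le_right a2) (on_le subset_rfl b3)

/-- **existence of the linear classes** -/
theorem exists_lin (hn : 0 < n) (dep : ∀ i j, i ≠ j → (ω i).Dep (ω j)) {c : Fin 3 → ℝ}
    (hc : ∀ i, 0 ≤ c i) : Nonempty (Lin ω c) := by
  have key : ∀ q : Σ i, J i ⊕ Bool, ∃ (φ : Co k 1 X) (x : ∀ i, J i → k), φ ∈ Cc k univ k 1 ∧
      (∀ j, q.2 = inl j → cob k φ = cob k ((ω q.1).ct j) ∧
        ((τ q.1).kd j ≠ o q.1 → φ = (ω q.1).ct j)) ∧ (q.2 = inr true → φ = 0) ∧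
      (q.2 = inr false → (o q.1 = false → cob k φ = -cob k (ω q.1).η) ∧
        (o q.1 = true → φ = -Wv.ct (hi (g.E.s (st v t q.1)) (c q.1)) (ω q.1).η)) ∧
      φ - (ω q.1).cx q.2 ∈ (On (hi (g.E.s (st v t q.1)) (c q.1))).van k k 1 ∧
      (∀ i, q.1 ≠ i → φ - ∑ j, x i j • (ω i).ct j ∈
        vo k g.E.cv (hi (g.E.s (st v t i)) ((ω i).l 2)) 1) ∧ ∀ i j, x i j ≠ 0 → Tf τ o i j q := by
    have l0 : ∀ i m, 0 ≤ (ω i).l m := fun i m => ((ω i).u0.trans (u_lt (ω i) m)).le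
    rintro ⟨i₀, j₀ | _ | _⟩
    · by_cases h : (τ i₀).kd j₀ = o i₀
      · obtain ⟨ζ, a1, a2, x, a3, a4⟩ := hat ω i₀ _ (hat_near dep h)
        refine ⟨_, x, sub_mem (ct_cc _ _) (cob_mem_Cc a1), ?_, by simp, by simp, ?_, a4,
          fun i j hj => ⟨(a3 i j hj).1, (a3 i j hj).2.1.1, (a3 i j hj).2.1.2,
            .inl ⟨j₀, rfl, h, (a3 i j hj).2.2⟩⟩⟩
        · rintro _ ⟨⟩
          exact ⟨by simp [cob_cob], fun h' => absurd h h'⟩
        · simpa [Wd.cx] using van_mono (hi_mono (hc i₀)) (Sb.cob_mem a2)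
      · refine ⟨(ω i₀).ct j₀, 0, ct_cc _ _, ?_, by simp, by simp, by simp [Wd.cx], fun i hi' => ?_,
          by simp⟩
        · rintro _ ⟨⟩
          exact ⟨rfl, fun _ => rfl⟩
        · simpa using on_le (hi_compl (Ne.symm hi') (l0 _ _) (l0 _ 0)) (ct_far h (Nat.zero_le _))
    · rcases (Bool.eq_false_or_eq_true (o i₀)).symm with h | h
      · obtain ⟨ζ, a1, a2, x, a3, a4⟩ := hat ω i₀ _ (hat_eta hn h)
        refine ⟨_, x, sub_mem (neg_mem (ω i₀).bz.cc) (cob_mem_Cc a1), by simp, by simp,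
          fun _ => ⟨fun _ => by simp [cob_cob], by simp [h]⟩, ?_, a4,
          fun i j hj => ⟨(a3 i j hj).1, (a3 i j hj).2.1.1, (a3 i j hj).2.1.2, .inr ⟨rfl, h⟩⟩⟩
        show -(ω i₀).η - cob k ζ - -(ω i₀).η ∈ _
        rw [sub_sub_cancel_left]
        exact neg_mem (van_mono (hi_mono (hc i₀)) (Sb.cob_mem a2))
      · refine ⟨-Wv.ct (hi (g.E.s (st v t i₀)) (c i₀)) (ω i₀).η, 0, neg_mem (Wv.ct_Cc (ω i₀).bz.cc),
          by simp, by simp, fun _ => ⟨by simp [h], fun _ => rfl⟩, ?_, fun i hi' => ?_, by simp⟩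
        · convert neg_mem (Wv.ct_sub (C := hi (g.E.s (st v t i₀)) (c i₀)) (a := (ω i₀).η)) using 1
          simp only [Wd.cx, elim_inr, Bool.false_eq_true, if_false]; abel
        · simpa using on_le (hi_compl (Ne.symm hi') (l0 _ _) (hc _)) Wv.ct_van
    · exact ⟨0, 0, zero_mem _, by simp, by simp, by simp, by simp [Wd.cx], by simp, by simp⟩
  choose φ x h1 h2 h3 h4 h5 h6 h7 using key
  exact ⟨⟨φ, fun i j q => x q i j, h1, fun i j => (h2 ⟨i, inl j⟩ j rfl).1,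
    fun i j => (h2 ⟨i, inl j⟩ j rfl).2, fun i => h3 ⟨i, _⟩ rfl, fun i => (h4 ⟨i, _⟩ rfl).1,
    fun i => (h4 ⟨i, _⟩ rfl).2, fun i x => h5 ⟨i, x⟩, fun i q => h6 q i, fun i j q => h7 q i j⟩⟩

end Crest.Agent.N255.Vl

end
end

-- ▼ part N255/Sg/Vz
section

/-!
# Row 255 (helper36): the chain of a vertex region, split along the zones
-/

set_option autoImplicit false
open Set

noncomputable section

namespace Crest.Agent.N255.Sg

open Tp Wn Vc Pt Lv En Ma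

variable {S : Type} [MulAction F3 S] {w : Wl (Fin 3) S} {F : Subgroup F3} {X : Type}
  [TopologicalSpace X] [MulAction F X] {k : Type} [Field k] {N : Lev w F X}
  {a b : Fin 3 → ℝ} {A R : ℝ} {v : F3} {h o : Fin 3 → Bool} {Q K : Set X} {O : Ori k 3 X}
  {σ : Fin 3 → Ch k 3 X} {L : Vz.Lv X (Fin 3)}

variable (N a b v h o O σ L) in
/-- the pieces `ρ z` of the vertex chain and the remainder `c` -/
structure Rc (A R : ℝ) (Q K : Set X) where
  ρ : L.Ix → Ch k 4 X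
  c : Ch k 3 X
  mem : ∀ z, ρ z ∈ (L.P N.cv z).ch k 4
  fine : ∑ z, ρ z ∈ (SB (L.cvr N.cv) (core L.s b)).ch k 4
  hc : c ∈ ((Pc N b v h A R Q).inf (Sm (L.cvr N.cv))).ch k 3
  bd : bd k (∑ z, ρ z) = c + ∑ j, (if o j then σ j else -σ j)
  fund : O.Fund (K ∩ inn L.s a) (∑ z, ρ z)

theorem fw_le_fine (hs : L.s = sv N v h) (ha : ∀ j, L.l j L.n ≤ a j) (hb : ∀ j, 0 ≤ b j) (j : Fin 3) :
    (N.Sb (fw (sv N v h j) N.r (a j) (b j) R)).Le ((Pc N b v h A R Q).inf (Sm (L.cvr N.cv))) :=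
  Sb.le_inf (fw_le_Pc (fun j => Vz.Lv.l_pos.le.trans (ha j)) hb j)
    (Vz.Lv.SB_le_cvr (i := j) (by rw [hs]; exact fw_le.trans (win_hi.trans (hi_mono (ha j)))))

/-- **the chains of a vertex region, on the zones** -/
theorem St.exists_rc [T2Space X] (Z : St N a b R v h o O σ) (hs : L.s = sv N v h)
    (ha : ∀ j, L.l j L.n ≤ a j) (hb : ∀ j, b j ≤ L.r j) (hb1 : ∀ j, b j ≤ 1) (hA : 0 ≤ A)
    (hQ : IsCompact Q) (hK : IsCompact K) : Nonempty (Rc N a b v h o O σ L A R Q K) := by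
  obtain ⟨ρ, h1, c, h2, h3, h4⟩ := Z.vertex (𝒵 := {U | L.fs U}) (A := A)
    (fun j => Vz.Lv.l_pos.le.trans (ha j)) hb1 hA hQ hK (fun _ => Vz.Lv.fs_open)
    (fun x _ => (Vz.Lv.fs_cover x).imp fun _ g => g)
    fun j => ⟨_, .inr ⟨j, .inr (.inl rfl)⟩, by rw [hs]; exact win_hi.trans (hi_mono (ha j))⟩
  have h5 : ρ ∈ (SB (L.cvr N.cv) (core L.s b)).ch k 4 := fun τ hτ =>
    ⟨hs ▸ (h1 hτ).1.1, Vz.Lv.mem_cvr.2 ⟨(h1 hτ).1.2, (h1 hτ).2⟩⟩
  obtain ⟨ρ', g1, rfl⟩ := Vz.Lv.exists_split hb h5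
  exact ⟨⟨ρ', c, g1, h5, fun τ hτ => ⟨(h2 hτ).1, Vz.Lv.mem_cvr.2 ⟨(h2 hτ).1.2, (h2 hτ).2⟩⟩, h3, hs ▸ h4⟩⟩


variable (N v h) in
/-- a compact set which contains the bounded parts of the three thick walls -/
def Kb (R : ℝ) : Set X := ⋃ j, box (sv N v h j) N.r 0 1 R



end Crest.Agent.N255.Sg

end
namespace Crest.Agent.N255.Sg.Rc
end Crest.Agent.N255.Sg.Rc
end

-- ▼ part N255/Vz/Gz

/-!
# Row 255 (helper88): the scalar facts on the zones of a vertex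
-/

set_option autoImplicit false
open Set

noncomputable section

namespace Crest.Agent.N255.Vz

open Tp Wn Vc Mv

variable {X ι : Type} [TopologicalSpace X] {k : Type} [Field k]

/-- commutation of the caps -/
theorem com_of {κ : Type} [Fintype κ] {P : κ → Sb X} {ρ : κ → Ch k 4 X} (hρ : ∀ j, ρ j ∈ (P j).ch k 4)
    {Q : Sb X} (hb : bd k (∑ j, ρ j) ∈ Q.ch k 3) {q u : Co k 2 X} (hq : ∀ j, q ∈ (P j).Z k k 2)
    (h : ∀ j, q ∈ (P j).van k k 2 ∨ u ∈ (P j).Z k k 2)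
    (h' : ∀ j, ∀ σ ∈ ((P j).inf Q).S 3, ∃ T : Sb X, σ ∈ T.S 3 ∧ (q ∈ T.van k k 2 ∨ u ∈ T.van k k 2)) :
    ev k u (cap 2 q (∑ j, ρ j)) = ev k u (cap' 2 q (∑ j, ρ j)) := by
  have e := congrArg (fun φ => ev k φ (∑ j, ρ j))
    (cob_cup1 (LinearMap.mul k k) (n := 3) (i := 2) (j := 2) rfl q u)
  have z : ∀ {φ : Co k 4 X}, (∀ j, φ ∈ (P j).van k k 4) → ev k φ (∑ j, ρ j) = 0 := fun h => by
    rw [map_sum]; exact Finset.sum_eq_zero fun j _ => Sb.ev_eq_zero (h j) (hρ j)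
  have z1 := z fun j => cup1_van_left (LinearMap.mul k k) 4 (Sb.mem_Z.1 (hq j)) u
  have z2 := z (φ := cup1 (LinearMap.mul k k) 4 q (cob k u)) fun j => (h j).elim
    (fun h => cup1_van_left _ 4 h _) fun h => cup1_van_right _ 4 _ (Sb.mem_Z.1 h)
  have z3 : ev k (cup1 (LinearMap.mul k k) 3 q u) (bd k (∑ j, ρ j)) = 0 := by
    have : bd k (∑ j, ρ j) ∈ Finsupp.supported k k (⋃ j, (P j).S 3) := by
      rw [map_sum]
      exact sum_mem fun j _ => Finsupp.supported_mono (subset_iUnion (fun j => (P j).S 3) j)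
        (Sb.bd_mem (hρ j))
    rw [ev, Finsupp.linearCombination_apply]
    refine Finset.sum_eq_zero fun σ hσ => ?_
    obtain ⟨j, hj⟩ := mem_iUnion.1 (this hσ)
    obtain ⟨T, hT, h | h⟩ := h' j σ ⟨hj, hb hσ⟩
    · exact smul_eq_zero_of_right _ (cup1_van_left _ 3 h u σ hT)
    · exact smul_eq_zero_of_right _ (cup1_van_right _ 3 q h σ hT)
  simp only [ev_sub, ev_smul, ← ev_bd, z1, z2, z3, mul_flip] at e
  rw [← per_eq, ← per'_eq, per_mul]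
  have e' : per' 4 q u (∑ j, ρ j) = ev k (cup (LinearMap.mul k k) 4 u q) (∑ j, ρ j) := by
    rw [per']; congr 2; funext σ; simp [cup, mul_comm]
  rw [e', ← sub_eq_zero]
  generalize ∑ j, ρ j = c at e
  norm_num at e
  exact e.symm

/-- the far sources: `η a` is the class `h a` of wall `sl a` cut at the level `t a` -/
structure Src (L : Lv X ι) (k : Type) [Field k] (𝒞 : Set (Set X)) (α : Type) where
  sl : α → ι
  pa : α → ℕ
  t : α → ℝ
  η : α → Co k 1 X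
  h : α → Co k 1 X
  pa_lt : ∀ a, pa a < L.n
  c_le : ∀ a, L.c (sl a) ≤ t a
  le : ∀ a, t a ≤ L.l (sl a) (pa a + 1)
  eq : ∀ a, pa a ≠ 0 → t a = L.l (sl a) (pa a + 1)
  l1 : ∀ a, η a ∈ (SB 𝒞 (lo (L.s (sl a)) (t a))).van k k 1
  l2 : ∀ a, η a - h a ∈ (SB 𝒞 (hi (L.s (sl a)) (t a))).van k k 1
  l3 : ∀ a, h a ∈ (SB 𝒞 (hi (L.s (sl a)) (t a))).Z k k 1

namespace Lv

variable (L : Lv X ι)

/-- the far parts of the zones -/
def Fz (𝒞 : Set (Set X)) (K : Set X) (z : L.Ix) : Sb X := (L.P 𝒞 z).inf (On Kᶜ)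

/-- the deep zones -/
def dp (z : L.Ix) : Prop := L.n ≤ L.pos z + 4

/-- simplices off `K` or beyond `l n` -/
def Qb (K : Set X) : Sb X := Sm (insert Kᶜ (range fun i => hi (L.s i) (L.l i L.n)))

variable {L} {i : ι} {m : ℕ}

theorem le_Qb (K : Set X) : (On Kᶜ).Le (L.Qb K) := On_le_Sm (mem_insert _ _)

theorem le_Qb' (K : Set X) (i : ι) : (On (hi (L.s i) (L.l i L.n))).Le (L.Qb K) :=
  On_le_Sm (mem_insert_of_mem _ ⟨i, rfl⟩)

theorem exists_zone {x : X} (h : ∀ i, L.s i x < L.r i) : ∃ z, x ∈ L.zs z := by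
  obtain ⟨U, hU, hx⟩ := L.fs_cover x
  rcases hU with rfl | ⟨i, rfl | rfl | ⟨z, hz, rfl⟩⟩
  exacts [⟨none, core_St hx⟩, ⟨none, win_St le_rfl hx⟩, ⟨L.ce i, sub_ce subset_rfl ⟨hx, h i⟩⟩,
    ⟨_, sub_lt hz subset_rfl hx⟩]

theorem disj_St {z : L.Ix} (h : m ≤ L.pos z) (h0 : 0 < m) : Disjoint (L.zs z) (L.St m) := by
  rcases z with _ | ⟨j, z⟩
  · exact absurd h (by simpa [pos] using h0.ne')
  · exact disjoint_left.2 fun x hx hx' => lt_asymm ((l_le h).trans_lt (zs_hi hx)) (hx' j)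

end Lv

namespace Src

open Vz.Lv

variable {L : Lv X ι} {𝒞 : Set (Set X)} {α : Type} (S : Src L k 𝒞 α)

/-- the sources -/
def q (a : α) : Co k 2 X := cob k (S.η a)

theorem t_pos (a : α) : 0 < S.t a := (L.c0 _).trans_le (S.c_le a)

theorem q_lo (a : α) {W : Set X} (h : W ⊆ lo (L.s (S.sl a)) (S.t a)) :
    S.q a ∈ (SB 𝒞 W).van k k 2 := Sb.van_mono (SB_mono h) (Sb.cob_mem (S.l1 a))

theorem q_hi (a : α) {W : Set X} (h : W ⊆ hi (L.s (S.sl a)) (S.t a)) :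
    S.q a ∈ (SB 𝒞 W).van k k 2 :=
  Sb.van_mono (SB_mono h) (Sb.mem_Z.1 (by simpa using add_mem (Sb.van_le_Z (S.l2 a)) (S.l3 a)))

theorem q_far (a : α) {i : ι} {m : ℕ} (hm : S.pa a < m) {W : Set X} (h : W ⊆ hi (L.s i) (L.l i m)) :
    S.q a ∈ (SB 𝒞 W).van k k 2 := by
  by_cases e : i = S.sl a
  · subst e; exact S.q_hi a (h.trans (hi_mono ((S.le a).trans (l_le hm))))
  · exact S.q_lo a (h.trans (hi_lo e l_pos.le (S.t_pos a).le))

/-- a source lives on the zones of its own position -/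
theorem q_van (a : α) {z : L.Ix} (h : L.pos z ≠ S.pa a) : S.q a ∈ (L.P 𝒞 z).van k k 2 := by
  have hn := S.pa_lt a
  rcases z with _ | ⟨j, z⟩
  · exact S.q_lo a fun x hx => (hx _).trans_le (S.eq a h.symm ▸ l_le (by
      have : S.pa a ≠ 0 := h.symm
      omega))
  have h : (z : ℕ) ≠ S.pa a := h
  rcases lt_or_gt_of_ne h with h | h
  · by_cases e : j = S.sl a
    · subst e
      refine S.q_lo a ((zs_lt (by omega)).le.trans (win_lo.trans (lo_mono ?_)))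
      exact S.eq a (by omega) ▸ l_le (by omega)
    · exact S.q_lo a (zs_hi.trans (hi_lo e l_pos.le (S.t_pos a).le))
  · exact S.q_far a h zs_hi

theorem q_ce (a : α) (i : ι) : S.q a ∈ (L.P 𝒞 (L.ce i)).van k k 2 := S.q_van a (S.pa_lt a).ne'

/-- the zones with the sources -/
def gz0 (i0 : ι) (ρ : L.Ix → Ch k 4 X) : Lz.Gz k X L.Ix α ι where
  P := L.P 𝒞
  PK i := L.P 𝒞 (L.ce i)
  q := S.q
  ρ := ρ
  γ := 4
  pos := L.pos
  pa := S.pa
  sl := L.sl i0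
  N1 _ _ := True
  N2 _ _ := True

/-- **the geometric data of a vertex** -/
def gz (i0 : ι) (K : Set X) (ρ : L.Ix → Ch k 4 X) : Lz.Gz k X L.Ix α ι :=
  { S.gz0 i0 ρ with
    N1 := (S.gz0 i0 ρ).M1 (S.gz0 i0 ρ).NF (L.Fz 𝒞 K) L.dp
    N2 := (S.gz0 i0 ρ).M2 (S.gz0 i0 ρ).NF (L.Fz 𝒞 K) }

variable {i0 : ι} {K K' : Set X} {ρ : L.Ix → Ch k 4 X}



variable [Fintype ι] [T2Space X] [ChartedSpace (EE 4) X] {O : Ori k 3 X}

/-- **the scalar facts** -/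
theorem gz_ok (ho : ∀ C ∈ 𝒞, IsOpen C) (hc : univ ⊆ ⋃₀ 𝒞) (hO : O.ND) (hX : Acy k (univ : Set X) univ)
    {r : C(X, ℝ)} (hB : ∀ i R, IsCompact (box (L.s i) r 0 (L.r i) R))
    (sp : ∀ i m, 2 ≤ m → m < L.n → (On (hi (L.s i) (L.l i m))).Z k k 1 ≤
      Submodule.span k (S.h '' {a | S.pa a ≤ m ∧ S.sl a = i}) ⊔
        (SB 𝒞 (hi (L.s i) (L.l i (m + 2)))).Ex k k 1)
    (cst : ∀ i m, m + 2 < L.n → (On (lo (L.s i) (L.l i (m + 2)))).Z k k 1 ≤
      (SB 𝒞 (lo (L.s i) (L.r i))).Z k k 1 ⊔ (SB 𝒞 (lo (L.s i) (L.l i m))).Ex k k 1)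
    (hK : IsCompact K) (hK' : IsCompact K') (hKK : K ∩ L.St L.n ⊆ K')
    (hρ : ∀ z, ρ z ∈ (L.P 𝒞 z).ch k 4) (hf : O.Fund K' (∑ z, ρ z))
    (hb : bd k (∑ z, ρ z) ∈ (L.Qb K).ch k 3) : (S.gz i0 K ρ).Ok where
  mem := hρ
  cl a z := by
    rw [Sb.mem_Z]; change cob k (cob k _) ∈ _
    rw [cob_cob]; exact zero_mem _
  loc a z h := S.q_van a h.ne'
  com z u h1 h2 a ha := by
    refine com_of hρ hb (fun j => by
      rw [Sb.mem_Z]; change cob k (cob k _) ∈ _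
      rw [cob_cob]; exact zero_mem _) (fun j => ?_) fun j σ hσ => ?_
    · by_cases e : L.pos j = S.pa a
      exacts [.inr (h2 j (e.trans_le ha)), .inl (S.q_van a e)]
    by_cases e : L.pos j = S.pa a
    · obtain ⟨_, rfl | ⟨i, rfl⟩, h⟩ := hσ.2
      · exact ⟨L.Fz 𝒞 K j, ⟨hσ.1, h⟩, .inr (h1.2.1 j (e.trans_le ha))⟩
      · exact ⟨SB 𝒞 _, ⟨h, hσ.1.2⟩, .inl (S.q_far a (S.pa_lt a) subset_rfl)⟩
    · exact ⟨_, hσ.1, .inl (S.q_van a e)⟩
  det1 z u h1 h2 h3 := by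
    by_cases hd : L.dp z
    · exact h1.2.2 hd
    have hd : L.pos z + 5 ≤ L.n := not_le.1 hd
    set p := L.pos z
    obtain ⟨θ, t1, t2⟩ := Dt.det1 ho hc hO hX (Z := L.zs) isOpen_zs (s := L.s) (r := r) (a₀ := fun _ => 0)
      (a := fun i => L.l i (p + 2)) (a₂ := fun i => L.l i (p + 4)) (b := fun i => L.l i (p + 5))
      (fun _ => l_pos.le) (fun _ => l_le (by omega)) (fun _ => l_lt (by omega))
      (fun e e' h x hx => (neg h hx).le)
      (fun i R => (hB i R).of_isClosed_subset isClosed_box (box_mono le_rfl (L.lt _ _).le le_rfl))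
      (fun y hy => exists_zone fun i => (hy i).trans_lt (L.lt _ _)) (sl := S.sl) (c := S.t) (η := S.η)
      (h := S.h) (T := {a | S.pa a ≤ p + 2})
      (fun a ha => ⟨S.t_pos a, (S.le a).trans (l_le (by have : S.pa a ≤ p + 2 := ha; omega))⟩)
      (fun a _ => S.l1 a) (fun a _ => S.l2 a) (fun a _ => S.l3 a)
      (fun i => (sp i (p + 2) (by omega) (by omega)).trans
        (sup_le_sup_left (Sb.Ex_mono (SB_mono win_hi)) _)) hK' hρ hf
      (fun a ha j => by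
        have : S.pa a ≤ p + 2 := ha
        by_cases e : L.pos j = S.pa a
        exacts [.inr (zs_St (m := p + 5) (by omega) (by omega)), .inl (S.q_van a e)])
      (u := u) (fun j => by
        rcases le_or_gt (L.pos j) (p + 4) with e | e
        · refine .inl ⟨h2 j e, Sb.van_mono (Sb.le_inf (SB_mono fun x hx => hx.1.1)
            (Sb.inf_le_left.trans (On_le fun x hx h => ?_))) (h1.2.1 j e)⟩
          exact hx.2 (hKK ⟨h, St_mono hd hx.1.2⟩)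
        · exact .inr (disj_St e (by omega)))
      (fun a ha => h3 a (show S.pa a ≤ p + 4 by have : S.pa a ≤ p + 2 := ha; omega)) (j₀ := z)
      fun x hx i => (zs_St (m := p + 2) le_rfl (by omega) hx i).le
    exact h1.1 z θ t1 t2
  det2 z u hz h1 h2 h3 := by
    rcases z with _ | ⟨i, z⟩
    · exact absurd hz (by simp [gz, gz0, pos])
    have hz : 4 < (z : ℕ) := hz
    rcases eq_or_ne z (Fin.last _) with rfl | hn
    · exact h3
    have hn : (z : ℕ) < L.n := Fin.val_lt_last hn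
    obtain ⟨m, hm⟩ : ∃ m, (z : ℕ) = m + 3 := ⟨z - 3, by omega⟩
    obtain ⟨R, hR⟩ := Dt.exists_rad r hK
    obtain ⟨θ, t1, t2⟩ := Dt.det2 ho hc hO hX (Z := L.zs) isOpen_zs (s := L.s i) (r := r) (a := L.l i m)
      (a₁ := L.l i (m + 1)) (a' := L.l i (m + 3)) (b' := L.l i (L.n + 1)) (b := L.l i (L.n + 2)) (R := R)
      (l_lt (by omega)) (l_le (by omega)) (l_le (by omega)) (l_lt (by omega))
      ((hB i R).of_isClosed_subset isClosed_box (box_mono l_pos.le (L.lt _ _).le le_rfl))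
      (fun y y1 y2 => exists_zone fun j => by
        by_cases e : i = j
        · exact e ▸ y2.trans_lt (L.lt _ _)
        · exact (neg e (l_pos.trans_le y1)).trans (l_pos.trans (L.lt j 0)))
      ((cst i (m + 1) (by omega)).trans (sup_le_sup
        (Sb.Z_mono (SB_mono (win_lo.trans (lo_mono (L.lt _ _).le)))) (Sb.Ex_mono (SB_mono win_lo))))
      (u := u) (fun j => by
        rcases j with _ | ⟨j, y⟩
        · exact .inr (disjoint_left.2 fun x hx hx' =>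
            lt_asymm ((hx i).trans_le (l_le (by omega))) hx'.1)
        by_cases e : j = i
        swap
        · exact .inr (disjoint_left.2 fun x hx hx' =>
            lt_asymm (hi_lo e l_pos.le l_pos.le (zs_hi hx)) hx'.1)
        subst e
        rcases le_or_gt (z : ℕ) (y + 4) with q | q
        · have nb : (S.gz i0 K ρ).nb2 (some (j, z)) (some (j, y)) := ⟨q, .inl rfl⟩
          exact .inl ⟨Sb.Z_mono (SB_mono inter_subset_left) (h2 _ nb), Sb.van_mono (Sb.le_inf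
            (SB_mono inter_subset_left) (Sb.inf_le_left.trans (On_le fun x hx => hR hx.2.1)))
            (h1.2 _ nb)⟩
        · exact .inr (disjoint_left.2 fun x hx hx' => lt_asymm
            (((zs_lt (by omega)).le hx).2.trans_le (l_le (by omega))) hx'.1))
      (Sb.van_mono (SB_mono (sub_ce (win_mono (l_le (by omega)) (L.lt _ _).le))) h3) (j₀ := some (i, z))
      fun x hx => let h := (zs_lt hn).le hx; ⟨(hm ▸ h.1).le, h.2.le.trans (l_le (by omega))⟩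
    exact h1.1 _ θ t1 t2

end Src

end Crest.Agent.N255.Vz

end
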